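import Mathlib
import Vale.Agent.P260.Defs
import Vale.Agent.P260.H145.PDZDef
import Vale.Agent.P260.H103.B1e
import Vale.Agent.P260.H119.Final
import Vale.Agent.P260.H119.GrowthDef
import Vale.Agent.P260.H119.Sub

/-!
# P260: characters of amenable Poincare duality groups of dimension 4
-/

namespace Vale.Agent.Results.P260.AmenableFibre

open Vale.Agent.P260 Vale.Agent.P260.H145

/-- Let `G` be an amenable Poincare duality group of dimension 4 and type FF.

(1) A subgroup of index at most 2 of `G` has a surjective homomorphism to `ℤ`.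

(2) If `ψ : H → ℤ` is a surjective homomorphism on a subgroup of finite index and its kernel is
finitely generated, then `G` is virtually solvable, or the kernel has a normal subgroup of finite
index without proper subgroups of finite index.

(3) If `G` has subexponential growth, then `G` is virtually solvable, or some subgroup of finite
index has a surjective homomorphism to `ℤ` whose kernel is finitely generated and has no proper
subgroups of finite index. -/
theorem result (G : Type) [Group G] (P : PD4Z G) (hG : Folner G) :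
    (∃ H : Subgroup G, H.FiniteIndex ∧ H.index ≤ 2 ∧
      ∃ ψ : H →* Multiplicative ℤ, Function.Surjective ψ) ∧
    (∀ H : Subgroup G, H.FiniteIndex → ∀ ψ : H →* Multiplicative ℤ, Function.Surjective ψ →
      Group.FG ψ.ker → VSolv G ∨ ∃ R : Subgroup ψ.ker, R.Normal ∧ R.FiniteIndex ∧
        ∀ T : Subgroup R, T.FiniteIndex → T = ⊤) ∧
    (SubexpGrowth G → VSolv G ∨ ∃ H : Subgroup G, H.FiniteIndex ∧
      ∃ ψ : H →* Multiplicative ℤ, Function.Surjective ψ ∧ Group.FG ψ.ker ∧
        ∀ T : Subgroup ψ.ker, T.FiniteIndex → T = ⊤) := by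
  obtain ⟨H₁, h2, hH₁, ψ₁, hψ₁⟩ := Vale.Agent.P260.H103.virtual_surj P hG
  exact ⟨⟨H₁, hH₁, h2, ψ₁, hψ₁⟩,
    fun H hH ψ hψ hfg => Vale.Agent.P260.H119.amen_dich P hG H hH ψ hψ hfg,
    fun hs => Vale.Agent.P260.H119.growth_dich P hs H₁ hH₁ ψ₁ hψ₁⟩

end Vale.Agent.Results.P260.AmenableFibre
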