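import Mathlib
import Vale.Agent.P260.H493.Final

/-!
# P260: amenable Poincare duality groups of dimension 4 with virtual first Betti number at least 2
-/

namespace Vale.Agent.Results.P260.TwoCharacters

open Vale.Agent.P260 Vale.Agent.P260.H145

/-- Let `G` be an amenable Poincare duality group of dimension 4 and type FF.  If some subgroup
`H` of finite index has two linearly independent homomorphisms to `ℤ` (so its first Betti number is
at least two), then `G` is virtually solvable. -/
theorem result (G : Type) [Group G] (P : PD4Z G) (hG : Folner G) (H : Subgroup G)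
    (hH : H.FiniteIndex) (χ₁ χ₂ : H →* Multiplicative ℤ)
    (hχ : ∀ a b : ℤ, χ₁ ^ a * χ₂ ^ b = 1 → a = 0 ∧ b = 0) : VSolv G :=
  H493.two_characters P hG H hH χ₁ χ₂ hχ

end Vale.Agent.Results.P260.TwoCharacters
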